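import Vale.Agent.P177.Main

/-! Serre's positivity conjecture for intersection multiplicities. -/

namespace Vale.Agent.Results.P177.Positivity

open TensorProduct

universe u

theorem result {R : Type u} [CommRing R] [IsRegularLocalRing R]
    (M N : ModuleCat.{u} R) [Module.Finite R M] [Module.Finite R N] [Nontrivial M] [Nontrivial N]
    (hl : Module.length R (M ⊗[R] N) ≠ ⊤) (d : ℕ) (hd : ringKrullDim R = d)
    (hdim : Module.supportDim R M + Module.supportDim R N = ringKrullDim R) :
    (∀ i : ℕ, Module.length R (((CategoryTheory.Tor (ModuleCat.{u} R) i).obj M).obj N) ≠ ⊤) ∧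
      0 < ∑ i ∈ Finset.range (d + 1), (-1 : ℤ) ^ i *
        ((Module.length R (((CategoryTheory.Tor (ModuleCat.{u} R) i).obj M).obj N)).toNat : ℤ) :=
  Vale.Agent.P177.serre_positivity M N hl d hd hdim

end Vale.Agent.Results.P177.Positivity
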